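import Vale.Agent.P011UGA.IF3
import Vale.Agent.P011UC.Lie
import Mathlib.LinearAlgebra.Eigenspace.Triangularizable

/-!
The rational points of the algebraic hull.
-/

set_option autoImplicit false
set_option linter.all false

namespace Vale.Agent.P011UT7

open Matrix Vale.Agent.P011L Vale.Agent.P183CH Vale.Agent.P011U Vale.Agent.P011UC
  Vale.Agent.P011UGA

section

variable {K : Type} [Field K] [IsAlgClosed K] {n : ℕ} {X : Matrix (Fin n) (Fin n) K}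
  {W : Submodule K (Matrix (Fin n) (Fin n) K)}

theorem ge_eq (h : ∀ Y ∈ W, adM X Y ∈ W) : W = ⨆ μ, W ⊓ Ge X μ :=
  Submodule.eq_iSup_inf_genEigenspace ⊤ h (Module.End.iSup_maxGenEigenspace_eq_top _)

theorem ge_ind (h : ∀ Y ∈ W, adM X Y ∈ W) {P : Matrix (Fin n) (Fin n) K → Prop}
    (h1 : ∀ μ, ∀ Y ∈ W, Y ∈ Ge X μ → P Y) (h2 : ∀ Y ∈ W, ∀ Z ∈ W, P Y → P Z → P (Y + Z)) :
    ∀ Y ∈ W, P Y := fun Y hY => by
  refine (Submodule.iSup_induction (fun μ => W ⊓ Ge X μ) (motive := fun Y => Y ∈ W ∧ P Y)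
    (ge_eq h ▸ hY) (fun μ Y hY => ⟨hY.1, h1 μ Y hY.1 hY.2⟩) ⟨zero_mem _, h1 0 0 (zero_mem _)
      (zero_mem _)⟩ fun Y Z a b => ⟨add_mem a.1 b.1, h2 Y a.1 Z b.1 a.2 b.2⟩).2

theorem ge_of (h : ∀ Y ∈ W, adM X Y ∈ W) {Z : Matrix (Fin n) (Fin n) K} (hZ : Z ∈ W) {μ : K}
    (hg : ∀ ν, ν ≠ μ → W ⊓ Ge X ν ≠ ⊥ → ∃ (g : Module.End K (Matrix (Fin n) (Fin n) K)) (c : K → K),
      (∀ ν', ∀ Y ∈ Ge X ν', g Y = c ν' • Y) ∧ g Z = c μ • Z ∧ c ν ≠ c μ) : Z ∈ Ge X μ := by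
  rw [ge_eq h] at hZ
  obtain ⟨z, h1, rfl⟩ := (Submodule.mem_iSup_iff_exists_finsupp _ _).1 hZ
  refine sum_mem fun ν hν => ?_
  by_cases e : ν = μ
  · exact e ▸ (h1 ν).2
  obtain ⟨g, c, h2, h3, h4⟩ := hg ν e fun e' => Finsupp.mem_support_iff.1 hν
    ((Submodule.eq_bot_iff _).1 e' _ (h1 ν))
  have h5 := (iSupIndep_iff_finsetSum_eq_zero_imp_eq_zero (Ge X)).1
    (adM X).independent_maxGenEigenspace z.support (fun ν => (c ν - c μ) • z ν)
    (fun ν _ => Submodule.smul_mem _ _ (h1 ν).2) (by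
      rw [Finsupp.sum, map_sum, Finset.smul_sum] at h3
      simp only [sub_smul, Finset.sum_sub_distrib, ← h3]
      exact sub_eq_zero.2 (Finset.sum_congr rfl fun ν _ => (h2 ν _ (h1 ν).2).symm)) ν hν
  exact ((smul_eq_zero.1 h5).resolve_left (sub_ne_zero.2 h4)).symm ▸ zero_mem _

end

variable {k K : Type} [Field k] [Field K] [Algebra k K] {D : Chev} {T : Tw k (D.grp K)}
  {A : (K ≃ₐ[k] K) → D.Mat K → D.Mat K} (hA : Df T A) {X : D.Mat K}
include hA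

theorem df_zero (σ : K ≃ₐ[k] K) : A σ 0 = 0 := by
  simpa using hA.smul σ 0 0

theorem df_sum (σ : K ≃ₐ[k] K) {ι : Type} (s : Finset ι) (v : ι → D.Mat K) :
    A σ (∑ i ∈ s, v i) = ∑ i ∈ s, A σ (v i) :=
  map_sum (AddMonoidHom.mk' (A σ) (hA.add σ)) v s

theorem df_sub (σ : K ≃ₐ[k] K) (M N : D.Mat K) : A σ (M - N) = A σ M - A σ N :=
  map_sub (AddMonoidHom.mk' (A σ) (hA.add σ)) M N

theorem df_ge (hX : X ∈ lg D K) (hf : ∀ σ, A σ X = X) (hs : ∀ Y ∈ lg D K, adM X Y ∈ lg D K)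
    (σ : K ≃ₐ[k] K) {μ : K} {Y : D.Mat K} (h1 : Y ∈ lg D K) (h2 : Y ∈ Ge X μ) :
    A σ Y ∈ Ge X (σ μ) := by
  obtain ⟨N, hN⟩ := (Module.End.mem_maxGenEigenspace _ _ _).1 h2
  refine (Module.End.mem_maxGenEigenspace _ _ _).2 ⟨N, ?_⟩
  clear h2
  induction N generalizing Y with
  | zero =>
    obtain rfl : Y = 0 := hN
    exact df_zero hA σ
  | succ N ih =>
    rw [pow_succ, Module.End.mul_apply] at hN ⊢
    refine Eq.trans (congrArg _ ?_) (ih (sub_mem (hs Y h1) (Submodule.smul_mem _ μ h1)) hN)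
    rw [df_sub hA, hA.br σ X hX Y h1, hf, hA.smul]
    rfl

theorem pow_fix {e : ℕ} (he : ∀ g : D.grp K, (∀ M ∈ lg D K, Ad g.1 M = M) →
    g ^ e = 1 ∧ ∀ x, Commute g x) {t : D.grp K}
    (h : ∀ σ, ∀ M ∈ lg D K, A σ (Ad t.1 M) = Ad t.1 (A σ M)) : t ^ e ∈ T.fix := fun σ => by
  obtain ⟨h1, h2⟩ := he (t⁻¹ * T.a σ t) fun M hM => by
    have h3 := hA.mem σ⁻¹ M hM
    rw [← hA.inv σ M hM, Subgroup.coe_mul, Ad_mul, ← hA.ad σ t _ h3, h σ _ h3]
    exact Ad_inv (t⁻¹).1 _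
  rw [map_pow, ← mul_inv_cancel_left t (T.a σ t), (h2 t).symm.mul_pow, h1, mul_one]

omit hA in
theorem ad_pow {t : D.grp K} {Y : D.Mat K} {c : K} (h : Ad t.1 Y = c • Y) (e : ℕ) :
    Ad (t ^ e).1 Y = c ^ e • Y := by
  induction e with
  | zero => simp [Ad_apply]
  | succ e ih => rw [pow_succ, Subgroup.coe_mul, Ad_mul, h, map_smul, ih, smul_smul, pow_succ']

omit hA in
theorem rh (h1 : LKA) (h2 : HUL1) (h3 : HUL2) (h4 : EQC) : RH :=
  fun k K _ _ _ _ _ D hD T _ A hA X hX hf W hW hXW f hfW hδ => by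
  classical
  have : CharZero K := charZero_of_injective_algebraMap (algebraMap k K).injective
  have : IsSepClosed K := IsSepClosure.sep_closed k
  have : IsAlgClosed K := IsSepClosed.isAlgClosed_of_perfectField K
  obtain ⟨a1, ⟨e, he, a2⟩, -⟩ := h1 D hD K
  have hs : ∀ Y ∈ lg D K, adM X Y ∈ lg D K := a1 _ X hX
  have fin : {μ | lg D K ⊓ Ge X μ ≠ ⊥}.Finite :=
    (WellFoundedGT.finite_ne_bot_of_iSupIndep (adM X).independent_maxGenEigenspace).subset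
      fun μ hμ e => hμ (eq_bot_iff.2 (inf_le_right.trans e.le))
  have mem : ∀ {μ} {Y : D.Mat K}, Y ∈ lg D K → Y ∈ Ge X μ → Y ≠ 0 → μ ∈ fin.toFinset :=
    fun a b c => fin.mem_toFinset.2 fun e => c ((Submodule.eq_bot_iff _).1 e _ ⟨a, b⟩)
  have b1 : ∀ μ, ∀ Y ∈ W, Y ∈ Ge X μ → f Y ∈ Ge X μ := fun μ Y hY hμ => by
    by_cases h0 : Y = 0
    · rw [h0, map_zero]
      exact zero_mem _
    refine ge_of hXW (hfW Y hY) fun ν hν hb => ?_
    obtain ⟨Z, hZ, hZ0⟩ := (Submodule.ne_bot_iff _).1 hb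
    obtain ⟨χ, c1, c2⟩ := h4 k K fin.toFinset (fun σ x hx => by
      obtain ⟨M, hM, hM0⟩ := (Submodule.ne_bot_iff _).1 (fin.mem_toFinset.1 hx)
      refine mem (hA.mem σ M hM.1) (df_ge hA hX hf hs σ hM.1 hM.2) fun e => hM0 ?_
      rw [← hA.inv σ⁻¹ M hM.1, inv_inv, e, df_zero hA]) (ν - μ)
      (sub_mem (AddSubgroup.subset_closure (mem (hW hZ.1) hZ.2 hZ0))
        (AddSubgroup.subset_closure (mem (hW hY) hμ h0))) (sub_ne_zero.2 hν) e he
    obtain ⟨t, c3, c4⟩ := h2 D hD K X hX χ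
    have c5 := pow_fix hA a2 (t := t) fun σ => ge_ind hs (fun ν M a b => by
      by_cases h0 : M = 0
      · rw [h0, map_zero, df_zero hA, map_zero]
      · rw [c4 ν M b, hA.smul, c4 _ _ (df_ge hA hX hf hs σ a b), c1 σ ν (mem a b h0)])
      fun M _ N _ a b => by rw [map_add, hA.add, a, b, hA.add, map_add]
    refine ⟨Ad (t ^ e).1, fun ν => (χ (.ofAdd ν) : K) ^ e, fun ν M a => ad_pow (c4 ν M a) e, ?_,
      fun e' => c2 ?_⟩
    · rw [hδ _ c5 (fun M hM => (c3 M hM).pow_right e) Y hY, ad_pow (c4 μ Y hμ), map_smul]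
    · rw [ofAdd_sub, map_div, div_pow, div_eq_one]
      exact Units.ext e'
  obtain ⟨N, c1, b, u, c2, c3⟩ := h3 D hD K X hX
  have c4 : ∀ {V : Submodule K (D.Mat K)}, (∀ Y ∈ V, adM X Y ∈ V) → ∀ Y ∈ V, adM N Y ∈ V :=
    fun h => ge_ind h (fun ν M a b => c1 ν M b ▸ sub_mem (h M a) (Submodule.smul_mem _ _ a))
      fun M _ M' _ a b => (map_add (adM N) M M').symm ▸ add_mem a b
  have c5 : ∀ σ, ∀ M ∈ lg D K, A σ (adM N M) = adM N (A σ M) := fun σ => ge_ind hs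
    (fun ν M a b => by
      rw [c1 ν M b, c1 _ _ (df_ge hA hX hf hs σ a b), df_sub hA, hA.br σ X hX M a, hf, hA.smul])
    fun M _ N _ a b => by rw [map_add, hA.add, a, b, hA.add, map_add]
  have c6 : ∀ σ (i : ℕ), ∀ M ∈ lg D K, A σ ((adM N ^ i) M) = (adM N ^ i) (A σ M) := fun σ i => by
    induction i with
    | zero => exact fun _ _ => rfl
    | succ i ih =>
      intro M hM
      rw [pow_succ, Module.End.mul_apply, Module.End.mul_apply, ih _ (c4 hs M hM), c5 σ M hM]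
  have c7 : ∀ Y ∈ W, adM N (f Y) = f (adM N Y) := fun Y hY => by
    have d1 := coef_mem (F := ℚ) ⊥ b (fun i => ((e : K) ^ i / (i.factorial : K)) •
      ((adM N ^ i) (f Y) - f ((adM N ^ i) Y))) (fun q => by
        have d2 := pow_fix hA a2 (t := u (.ofAdd (q : K))) fun σ M hM => by
          rw [(c3 _).2, (c3 _).2, df_sum hA]
          refine Finset.sum_congr rfl fun i _ => ?_
          rw [hA.smul, c6 σ i M hM, map_div₀, map_pow, map_ratCast, map_natCast]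
        rw [← map_pow, ← ofAdd_nsmul] at d2
        have d3 := hδ _ d2 (c3 _).1 Y hY
        rw [(c3 _).2, (c3 _).2, map_sum, ← sub_eq_zero, ← Finset.sum_sub_distrib] at d3
        refine (Submodule.mem_bot ℚ).2 (Eq.trans (Finset.sum_congr rfl fun i _ => ?_) d3)
        rw [map_smul, ← smul_sub, ← Rat.cast_smul_eq_qsmul K, smul_smul, nsmul_eq_mul, mul_pow,
          Rat.cast_pow, mul_div_assoc', mul_comm]) (m := 1) c2
    rw [Submodule.mem_bot, pow_one, pow_one, Nat.factorial_one, Nat.cast_one, div_one] at d1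
    exact sub_eq_zero.1 ((smul_eq_zero.1 d1).resolve_left (Nat.cast_ne_zero.2 he.ne'))
  refine ge_ind hXW (fun μ Y a b => ?_) fun Y _ Z _ a b => by simp only [map_add, a, b]
  have d1 := c7 Y a
  rwa [c1 μ _ (b1 μ Y a b), c1 μ Y b, map_sub, map_smul, sub_left_inj] at d1

end Vale.Agent.P011UT7
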