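import Vale.Agent.P011UT4.Defs
import Vale.Agent.P011UH.Cl

/-!
The isogeny to the adjoint group.
-/

set_option autoImplicit false
set_option linter.all false

namespace Vale.Agent.P011UT7

open Matrix Vale.Agent.P011L Vale.Agent.P183CH Vale.Agent.P183CH.Chev Vale.Agent.P011U
  Vale.Agent.P011UH Vale.Agent.P011UT4

variable {D : Chev} {m : ℕ}

theorem li_map {F K : Type} [Field F] [Field K] [Algebra F K] {b : Fin m → D.Mat F}
    (h : LinearIndependent F b) : LinearIndependent K (bm (algebraMap F K) b) := by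
  have h1 := h.map' (LinearEquiv.curry F F (Fin D.n) (Fin D.n)).symm.toLinearMap
    (LinearEquiv.ker _)
  exact (linearIndependent_algebraMap_comp_iff (S := K).2 h1).map'
    (LinearEquiv.curry K K (Fin D.n) (Fin D.n)).toLinearMap (LinearEquiv.ker _)

theorem gg_le {F K : Type} [Field F] [Field K] [Algebra F K] {b : Fin m → D.Mat F} (h : Bs b) :
    gg D K ≤ Submodule.span K (Set.range (bm (algebraMap F K) b)) := by
  have h1 : ∀ X ∈ gg D F, X.map (algebraMap F K) ∈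
      Submodule.span K (Set.range (bm (algebraMap F K) b)) := fun X hX => by
    rw [← h.2] at hX
    obtain ⟨c, rfl⟩ := (Submodule.mem_span_range_iff_exists_fun F).1 hX
    refine (Submodule.mem_span_range_iff_exists_fun K).2 ⟨fun i => algebraMap F K (c i), ?_⟩
    ext a a'
    simp only [bm, Matrix.sum_apply, Matrix.smul_apply, map_apply, smul_eq_mul, map_sum, map_mul]
  refine Submodule.span_le.2 ?_
  rintro _ (⟨γ, h2, h3, rfl⟩ | ⟨i, rfl⟩)
  · exact map_ct (algebraMap F K) (D.EE γ 1) ▸ h1 _ (Submodule.subset_span (Or.inl ⟨γ, h2, h3, rfl⟩))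
  · exact map_ct (algebraMap F K) (D.hm i) ▸ h1 _ (Submodule.subset_span (Or.inr ⟨i, rfl⟩))

/-- Specialisation of a point. -/
theorem spec {K Ω : Type} [Field K] [IsAlgClosed K] [Field Ω] [Algebra K Ω] (hD : SC D)
    (g : D.grp Ω) : ∃ h : D.grp K, ∀ p, ev K g.1.1 p = 0 → ev K h.1.1 p = 0 := by
  obtain ⟨I, h1, h2⟩ := Ideal.exists_le_maximal (RingHom.ker (ev K g.1.1)) (RingHom.ker_ne_top _)
  obtain ⟨x, rfl⟩ := MvPolynomial.isMaximal_iff_eq_vanishingIdeal_singleton.1 h1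
  have h3 : ∀ p, ev K g.1.1 p = 0 → ev K (of fun a b => x (a, b)) p = 0 := fun p hp =>
    (MvPolynomial.mem_vanishingIdeal_singleton_iff x p).1 (h2 hp)
  obtain ⟨h, e⟩ := Zc.mem hD (M := of fun a b => x (a, b)) fun p hp => h3 p (zc_grp g p hp)
  exact ⟨h, e ▸ h3⟩

theorem lift {k F K E : Type} [Field k] [Field F] [Field K] [Field E] [Algebra k F] [Algebra k K]
    [Algebra F K] [IsScalarTower k F K] [Algebra k E] [IsAlgClosed K] [Algebra.IsAlgebraic F K]
    (hD : SC D) {b : Fin m → D.Mat F} (hb : Bs b) {ρ : D.grp K →* Matrix (Fin m) (Fin m) K}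
    (hρ : Rp (bm (algebraMap F K) b) ρ) (φ : F →ₐ[k] E) {ρ' : D.grp E →* Matrix (Fin m) (Fin m) E}
    (hρ' : Rp (bm φ b) ρ') {δ : Matrix (Fin m) (Fin m) k} {g : D.grp E}
    (e : ρ' g = δ.map (algebraMap k E)) : ∃ h, ρ h = δ.map (algebraMap k K) := by
  let Ω := AlgebraicClosure E
  let ι : E →+* Ω := algebraMap E Ω
  let _ : Algebra F Ω := (ι.comp (φ : F →+* E)).toAlgebra
  let ψ : K →ₐ[F] Ω := IsAlgClosed.lift
  let _ : Algebra K Ω := (ψ : K →+* Ω).toAlgebra
  have a1 : ∀ x : F, algebraMap K Ω (algebraMap F K x) = ι (φ x) := ψ.commutes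
  have a2 : ∀ x : k, algebraMap K Ω (algebraMap k K x) = ι (algebraMap k E x) := fun x => by
    rw [IsScalarTower.algebraMap_apply k F K, a1, φ.commutes]
  obtain ⟨h, hh⟩ := spec (K := K) hD (fm D ι g)
  refine ⟨h, Matrix.ext fun i j => ?_⟩
  have h1 : g.1.1 * bm φ b j = (∑ i, algebraMap k E (δ i j) • bm φ b i) * g.1.1 := by
    have h2 := hρ' g j
    rw [e, Ad_apply] at h2
    exact (Units.mul_inv_eq_iff_eq_mul _).1 h2
  let B := bm (algebraMap F K) b
  let C : D.Mat K := ∑ i, algebraMap k K (δ i j) • B i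
  have h2 : (B j).map (algebraMap K Ω) = (bm φ b j).map ι := Matrix.ext fun _ _ => a1 _
  have h3 : C.map (algebraMap K Ω) = (∑ i, algebraMap k E (δ i j) • bm φ b i).map ι := by
    ext a a'
    simp only [C, B, bm, Matrix.sum_apply, Matrix.smul_apply, map_apply, smul_eq_mul, map_sum,
      map_mul, a1, a2]
  have h4 : h.1.1 * B j = C * h.1.1 := by
    ext a a'
    have h5 := hh ((gx (Fin D.n) K * (B j).map (algebraMap K (MvPolynomial (Fin D.n × Fin D.n) K)))
        a a' - (C.map (algebraMap K (MvPolynomial (Fin D.n × Fin D.n) K)) * gx (Fin D.n) K) a a') (by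
      rw [map_sub]
      refine sub_eq_zero.2 ((congrFun (congrFun (ev_mul (B j) _).1 a) a').trans
        (Eq.trans ?_ (congrFun (congrFun (ev_mul C _).2 a) a').symm))
      rw [h2, h3, fm_val, ← Matrix.map_mul, ← Matrix.map_mul, h1])
    rw [map_sub] at h5
    exact (congrFun (congrFun (ev_mul (B j) h.1.1).1 a) a').symm.trans
      ((sub_eq_zero.1 h5).trans (congrFun (congrFun (ev_mul C h.1.1).2 a) a'))
  have h5 := (hρ h j).symm.trans ((Units.mul_inv_eq_iff_eq_mul _).2 h4)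
  exact Fintype.linearIndependent_iffₛ.1 (li_map hb.1) _ _ h5 i

/-- The abstract step. -/
theorem idx {G S A B L : Type} [Group G] [Group S] [Group A] [Group B] [Group L]
    (a : S → G →* G) (ρ : G →* B) (u : A →* B) (hu : Function.Injective u) (r : L →* A) {e : ℕ}
    (he : 0 < e) (hz : ∀ z, ρ z = 1 → (∀ g, z * g = g * z) ∧ z ^ e = 1)
    (hr : ∀ g, (∀ σ, a σ g = g) → ∃ l, u (r l) = ρ g) (Λ : Subgroup A) (hΛ : Λ.FG)
    (h1 : ∀ δ ∈ Λ, ∃ g, ρ g = u δ) (h2 : ∀ δ g, ρ g = u δ → ∀ σ, ρ (a σ g) = ρ g) :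
    r.range.relIndex Λ ≠ 0 := by
  classical
  obtain ⟨s, rfl⟩ := hΛ
  choose t ht using fun δ : s => h1 δ (Subgroup.subset_closure δ.2)
  let P := Subgroup.closure (Set.range t)
  have h3 : P.map ρ = (Subgroup.closure (s : Set A)).map u := by
    rw [MonoidHom.map_closure, MonoidHom.map_closure, ← Set.range_comp, Set.image_eq_range]
    exact congrArg (fun f => Subgroup.closure (Set.range f)) (funext ht)
  have h4 : ∀ (g : P) σ, ρ (g.1⁻¹ * a σ g) = 1 := fun g σ => by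
    obtain ⟨δ, -, e⟩ : ρ g ∈ (Subgroup.closure (s : Set A)).map u := h3 ▸ ⟨g, g.2, rfl⟩
    rw [map_mul, map_inv, h2 δ g e.symm, inv_mul_cancel]
  let c : P →* S → Subgroup.center G := MonoidHom.mk' (fun g σ => ⟨g.1⁻¹ * a σ g,
    Subgroup.mem_center_iff.2 fun x => ((hz _ (h4 g σ)).1 x).symm⟩) fun g g' =>
      funext fun σ => Subtype.ext (by
        show (g.1 * g'.1)⁻¹ * a σ (g.1 * g'.1) = g.1⁻¹ * a σ g * (g'.1⁻¹ * a σ g')
        rw [← mul_assoc, (hz _ (h4 g σ)).1, map_mul, _root_.mul_inv_rev]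
        simp only [mul_assoc])
  have : Group.FG P := (Group.fg_iff_subgroup_fg P).2
    ((Subgroup.fg_iff P).2 ⟨_, rfl, Set.finite_range t⟩)
  let _ : CommGroup (Subgroup.center G) := { mul_comm := mul_comm' }
  have : Finite c.range := CommGroup.finite_of_fg_isMulTorsion _ (by
    rintro ⟨_, g, rfl⟩
    exact isOfFinOrder_iff_pow_eq_one.2 ⟨e, he, Subtype.ext (funext fun σ =>
      Subtype.ext ((Subgroup.coe_pow _ _ _).trans (hz _ (h4 g σ)).2))⟩)
  have h5 : ∀ δ : Subgroup.closure (s : Set A), ∃ g : P, ρ g = u δ := fun δ => by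
    obtain ⟨g, h, e⟩ : u δ ∈ P.map ρ := h3 ▸ ⟨δ, δ.2, rfl⟩
    exact ⟨⟨g, h⟩, e⟩
  choose l hl using h5
  refine P011ND.relIndex_ne_zero_of_label (fun δ => c (l δ))
    ((Set.toFinite (c.range : Set (S → Subgroup.center G))).subset ?_) fun δ δ' e => ?_
  · rintro _ ⟨δ, rfl⟩
    exact ⟨_, rfl⟩
  · have h6 : c ((l δ)⁻¹ * l δ') = 1 := by rw [map_mul, map_inv, e, inv_mul_cancel]
    obtain ⟨x, hx⟩ := hr ((l δ)⁻¹ * l δ').1 fun σ =>
      (inv_mul_eq_one.1 (congrArg Subtype.val (congrFun h6 σ))).symm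
    refine ⟨x, hu (hx.trans ?_)⟩
    rw [Subgroup.coe_mul, Subgroup.coe_inv, map_mul, map_inv, hl, hl, Subgroup.coe_mul,
      Subgroup.coe_inv, map_mul, map_inv]

theorem isg (hc : CEN) : ISG := fun k K _ _ _ _ _ D hD T F m b M ρ r h E _ _ φ ρ' hρ' Λ hΛ h1 => by
  obtain ⟨e, he, hc⟩ := hc D
  have : CharZero K := charZero_of_injective_algebraMap (algebraMap k K).injective
  have : IsSepClosed K := IsSepClosure.sep_closed k
  have : IsAlgClosed K := IsSepClosed.isAlgClosed_of_perfectField K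
  refine idx (fun σ => (T.a σ).toMonoidHom) ρ.toHomUnits (gm (algebraMap k K)) (gm_inj _)
    r.toHomUnits he (fun z hz => hc K z fun X hX => ?_)
    (fun g hg => ⟨⟨g, hg⟩, Units.ext (h.rr _)⟩) Λ hΛ (fun δ hδ => ?_) fun δ g e σ => Units.ext ?_
  · have h2 : ρ z = 1 := congrArg Units.val hz
    refine LinearMap.eqOn_span' (f := Ad z.1) (g := LinearMap.id) ?_ (gg_le h.bs hX)
    rintro _ ⟨j, rfl⟩
    rw [h.rp z j, h2]
    simp [one_apply]
  · obtain ⟨g, e⟩ := h1 δ hδ
    exact (lift hD h.bs h.rp φ hρ' e).imp fun _ => Units.ext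
  · have h2 : ρ g = δ.1.map (algebraMap k K) := congrArg Units.val e
    refine (h.eqv σ g).trans (Eq.trans ?_ h2.symm)
    rw [h2]
    exact Matrix.ext fun _ _ => σ.commutes _

end Vale.Agent.P011UT7
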